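import Vale.Agent.P011.Two.HigherFinal

/-!
The special unitary group of a hermitian form of rank two acts transitively on the lines of the
unit vectors.
-/

open NumberField Matrix Module

namespace Vale.Agent.P011.E6O

open Vale.Agent.P011S Vale.Agent.P011.Arith Vale.Agent.P011.Even Vale.Agent.P011.Two
open Vale.Agent.P011.Two.Hi

section gen

variable {K D Ω : Type} [Field K] [DivisionRing D] [StarRing D] [Algebra K D] [Field Ω]
  [Algebra K Ω] {n : ℕ} (f : D →ₐ[K] Matrix (Fin n) (Fin n) Ω)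

theorem m2_mul (u v : (D × D) ≃ₗ[D] (D × D)) : m2 (u * v) = m2 v * m2 u := by
  have h1 : (u * v) (1, 0) = u (v (1, 0)) := rfl
  have h2 : (u * v) (0, 1) = u (v (0, 1)) := rfl
  rw [m2, h1, h2, u_apply u (v (1, 0)), u_apply u (v (0, 1)), m2, m2]
  ext i j
  fin_cases i <;> fin_cases j <;> simp [Matrix.mul_apply, Fin.sum_univ_two]

omit [StarRing D] in
theorem m2_one : m2 (1 : (D × D) ≃ₗ[D] (D × D)) = 1 := by
  ext i j
  fin_cases i <;> fin_cases j <;> simp [m2]

/-- The special unitary group of the form `⟨1, g⟩`, as a group of linear maps. -/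
def SUh (g : D) : Subgroup ((D × D) ≃ₗ[D] (D × D)) where
  carrier := {u | u ∈ Uh g ∧ redNorm f (Fin 2) (m2 u) = 1}
  mul_mem' := by
    rintro u v ⟨hu, hu'⟩ ⟨hv, hv'⟩
    refine ⟨mul_mem hu hv, ?_⟩
    rw [m2_mul, map_mul, hu', hv', one_mul]
  one_mem' := ⟨one_mem _, by rw [m2_one, map_one]⟩
  inv_mem' := by
    rintro u ⟨hu, hu'⟩
    refine ⟨inv_mem hu, ?_⟩
    have h : m2 u * m2 u⁻¹ = 1 := by rw [← m2_mul, inv_mul_cancel, m2_one]
    have h1 := congrArg (redNorm f (Fin 2)) h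
    rw [map_mul, hu', one_mul, map_one] at h1
    exact h1

theorem SUh_conj {g : D} {v : (D × D) ≃ₗ[D] (D × D)} (hv : v ∈ Uh g)
    {x : (D × D) ≃ₗ[D] (D × D)} (hx : x ∈ SUh f g) : v * x * v⁻¹ ∈ SUh f g := by
  refine ⟨mul_mem (mul_mem hv hx.1) (inv_mem hv), ?_⟩
  have h : m2 v * m2 v⁻¹ = 1 := by rw [← m2_mul, inv_mul_cancel, m2_one]
  have h1 := congrArg (redNorm f (Fin 2)) h
  rw [map_mul, map_one] at h1
  rw [m2_mul, m2_mul, map_mul, map_mul, hx.2, one_mul, mul_comm]
  exact h1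

/-- The matrix of a unitary map. -/
theorem m2_isom {g : D} {u : (D × D) ≃ₗ[D] (D × D)} (hu : u ∈ Uh g) :
    m2 u * Matrix.diagonal ![1, g] * (m2 u)ᴴ = Matrix.diagonal ![1, g] := by
  have h00 := hu (1, 0) (1, 0)
  have h01 := hu (1, 0) (0, 1)
  have h10 := hu (0, 1) (1, 0)
  have h11 := hu (0, 1) (0, 1)
  simp only [hh, star_one, star_zero, mul_one, mul_zero, zero_mul, one_mul, add_zero, zero_add]
    at h00 h01 h10 h11
  ext i j
  rw [Matrix.mul_apply, Fin.sum_univ_two, Matrix.mul_diagonal, Matrix.mul_diagonal,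
    Matrix.conjTranspose_apply, Matrix.conjTranspose_apply]
  fin_cases i <;> fin_cases j
  · simpa [m2] using h00
  · simpa [m2] using h01
  · simpa [m2] using h10
  · simpa [m2] using h11

end gen

section hq

variable {k K D Ω : Type} [Field k] [NumberField k] [Field K] [StarRing K]
  [DivisionRing D] [StarRing D] [Algebra k K] [Algebra k D] [Algebra K D] [IsScalarTower k K D]
  [Field Ω] [Algebra K Ω] {d : kˣ} {s : K} {n : ℕ} (f : D →ₐ[K] Matrix (Fin n) (Fin n) Ω)

/-- The plane elements have reduced norm one. -/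
theorem hq_SUh (hS : Setting k K D d s) {g : D} (hg : star g = g) (han : An g) (e : ℕ) :
    HQ d s g e (SUh f g) := by
  intro F _ _ _ ι b p₀ p₁ q₀ q₁ y w u hu _
  have hspan := planeElt_spans hg han hu
  refine ⟨planeElt_mem hS hg han hu, ?_⟩
  obtain ⟨hsym, hyy, hyw, hww, hnrm, huy, huw⟩ := hu
  obtain ⟨a1, c1, h1⟩ := hspan (1, 0)
  obtain ⟨a2, c2, h2⟩ := hspan (0, 1)
  obtain ⟨T, hTd⟩ : ∃ T : Matrix (Fin 2) (Fin 2) D, T = !![y.1, y.2; w.1, w.2] := ⟨_, rfl⟩
  have hT1 : !![a1, c1; a2, c2] * T = 1 := by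
    rw [hTd]
    have e1 := congrArg Prod.fst h1
    have e2 := congrArg Prod.snd h1
    have e3 := congrArg Prod.fst h2
    have e4 := congrArg Prod.snd h2
    simp only [Prod.fst_add, Prod.snd_add, Prod.smul_fst, Prod.smul_snd, smul_eq_mul]
      at e1 e2 e3 e4
    ext i j
    fin_cases i <;> fin_cases j <;>
      simp [Matrix.mul_apply, Fin.sum_univ_two, ← e1, ← e2, ← e3, ← e4]
  have hT0 : redNorm f (Fin 2) T ≠ 0 := by
    intro h0
    have h3 := congrArg (redNorm f (Fin 2)) hT1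
    rw [map_mul, h0, mul_zero, map_one] at h3
    exact zero_ne_one h3
  have hTM : T * m2 u = !![ι p₀ + ι p₁ * algebraMap K D s, ι q₀ + ι q₁ * algebraMap K D s;
      -(ι b * (ι q₀ - ι q₁ * algebraMap K D s)), ι p₀ - ι p₁ * algebraMap K D s] * T := by
    rw [u_apply u y] at huy
    rw [u_apply u w] at huw
    have e1 := congrArg Prod.fst huy
    have e2 := congrArg Prod.snd huy
    have e3 := congrArg Prod.fst huw
    have e4 := congrArg Prod.snd huw
    simp only [Prod.fst_add, Prod.snd_add, Prod.smul_fst, Prod.smul_snd, smul_eq_mul]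
      at e1 e2 e3 e4
    rw [hTd, m2]
    ext i j
    fin_cases i <;> fin_cases j
    · simpa [Matrix.mul_apply, Fin.sum_univ_two] using e1
    · simpa [Matrix.mul_apply, Fin.sum_univ_two] using e2
    · simpa [Matrix.mul_apply, Fin.sum_univ_two] using e3
    · simpa [Matrix.mul_apply, Fin.sum_univ_two] using e4
  have h4 := congrArg (redNorm f (Fin 2)) hTM
  rw [map_mul, map_mul, redNorm_plane f hS.sq ι b p₀ p₁ q₀ q₁ hnrm, one_mul] at h4
  exact mul_left_cancel₀ hT0 (by rw [h4, mul_one])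

end hq

section main

variable {K D Ω : Type} [Field K] [NumberField K] [StarRing K] [DivisionRing D] [StarRing D]
  [Algebra K D] [StarModule K D] [FiniteDimensional K D] [Algebra.IsCentral K D] [Field Ω]
  [Algebra K Ω] {n : ℕ} (f : D →ₐ[K] Matrix (Fin n) (Fin n) Ω)

/-- The special unitary group of a hermitian form of rank two acts transitively on the lines of
the unit vectors. -/
theorem exists_line (hK : ∃ t : K, star t ≠ t) (hn : 2 ≤ n) (hdeg : finrank K D = n ^ 2)
    {g : D} (hg : star g = g)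
    (han : ∀ x y : D, x * star x + y * g * star y = 0 → x = 0 ∧ y = 0)
    {x y : D} (h1 : x * star x + y * g * star y = 1) :
    ∃ (m : Matrix (Fin 2) (Fin 2) D) (δ : D), δ ≠ 0 ∧
      m * Matrix.diagonal ![1, g] * mᴴ = Matrix.diagonal ![1, g] ∧
      redNorm f (Fin 2) m = 1 ∧ m 0 0 = δ * x ∧ m 0 1 = δ * y := by
  obtain ⟨k0, hk0⟩ := hK
  have hθ0 : k0 - star k0 ≠ 0 := sub_ne_zero.mpr (Ne.symm hk0)
  have hθ : star (k0 - star k0) = -(k0 - star k0) := by rw [star_sub, star_star, neg_sub]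
  let _ := algFK (K := K) (D := D)
  have _ : IsScalarTower (FK K) K D := IsScalarTower.of_algebraMap_eq fun _ => rfl
  have hS : Setting (FK K) K D (sqU hθ0 hθ) (k0 - star k0) := setting hθ0 hθ
  have han' : An g := fun z hz => by
    obtain ⟨h2, h3⟩ := han z.1 z.2 hz
    exact Prod.ext h2 h3
  obtain ⟨u, ⟨hu, hu'⟩, δ, hδ, hue⟩ := transitive hS hn hdeg hg han' one_pos
    (N := SUh f g) (fun v hv z hz => SUh_conj f hv hz) (hq_SUh f hS hg han' 1) (x, y) h1
  refine ⟨m2 u, δ, hδ, m2_isom hu, hu', ?_, ?_⟩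
  · exact congrArg Prod.fst hue
  · exact congrArg Prod.snd hue

end main

end Vale.Agent.P011.E6O
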